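import Vale.Agent.P268.T.H327.Geo

/-!
# P268, topological half: plates of the hairpin form which meet

Pointwise facts on the plates of the hairpin form at one `(τ, x)`, `x = (s, v)`, `s ≠ 0`, for
admissible parameters: which plates can be present at the same time, and the relation of the fold
plate with the two sheets of the hairpin in the zone where they overlap.
-/

set_option linter.unusedSectionVars false

namespace Vale.Agent.P268.T

open Set Filter Topology Metric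

section FoldAlg

variable {V : Type*} [NormedAddCommGroup V] [InnerProductSpace ℝ V]

/-- The part of `y` orthogonal to the unit vector `φ`. -/
noncomputable def prp (ph y : V) : V := y - inner ℝ y ph • ph

theorem foldw_eq (z : ℝ) (ph y : V) : foldw z ph y = (|inner ℝ y ph| + z) • ph + prp ph y := by
  unfold foldw prp
  module

theorem inner_prp {ph : V} (hph : ‖ph‖ = 1) (y : V) : inner ℝ (prp ph y) ph = 0 := by
  unfold prp
  rw [inner_sub_left, real_inner_smul_left, real_inner_self_eq_norm_sq, hph]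
  ring

theorem norm_sq_split {ph : V} (hph : ‖ph‖ = 1) (c : ℝ) (y : V) :
    ‖c • ph + prp ph y‖ ^ 2 = c ^ 2 + ‖prp ph y‖ ^ 2 := by
  have h1 : inner ℝ ph (prp ph y) = 0 := by rw [real_inner_comm, inner_prp hph]
  rw [← real_inner_self_eq_norm_sq, ← real_inner_self_eq_norm_sq (prp ph y), inner_add_left,
    inner_add_right, inner_add_right, real_inner_smul_left, real_inner_smul_left,
    real_inner_smul_right, real_inner_smul_right, inner_prp hph, h1,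
    real_inner_self_eq_norm_sq, hph]
  ring

theorem abs_le_norm_split {ph : V} (hph : ‖ph‖ = 1) (c : ℝ) (y : V) :
    |c| ≤ ‖c • ph + prp ph y‖ := by
  have h := norm_sq_split hph c y
  refine abs_le_of_sq_le_sq' ?_ (norm_nonneg _) |> abs_le.mpr
  nlinarith [sq_nonneg ‖prp ph y‖]

theorem prp_le_norm_split {ph : V} (hph : ‖ph‖ = 1) (c : ℝ) (y : V) :
    ‖prp ph y‖ ≤ ‖c • ph + prp ph y‖ := by
  have h := norm_sq_split hph c y
  refine le_of_sq_le_sq ?_ (norm_nonneg _)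
  nlinarith [sq_nonneg c]

theorem eq_split (ph y : V) : y = inner ℝ y ph • ph + prp ph y := by
  unfold prp
  module

/-- If the fold is small then `y` is close to a point `μ φ`, `|μ| ≤ r₀`. -/
theorem fold_near {ph : V} (hph : ‖ph‖ = 1) {y : V} {z r₀ ρ : ℝ} (hr : 0 ≤ r₀) (hz : -r₀ ≤ z)
    (h : ‖foldw z ph y‖ < ρ) : z < ρ ∧ |inner ℝ y ph| < ρ + r₀ ∧ ‖prp ph y‖ < ρ ∧
    ∃ μ : ℝ, |μ| ≤ r₀ ∧ ‖y - μ • ph‖ < 2 * ρ := by
  rw [foldw_eq] at h
  have h1 : |(|inner ℝ y ph| + z)| < ρ := (abs_le_norm_split hph _ y).trans_lt h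
  have h2 : ‖prp ph y‖ < ρ := (prp_le_norm_split hph _ y).trans_lt h
  have h3 := abs_nonneg (inner ℝ y ph)
  have h4 := (abs_lt.mp h1).2
  have hρ : 0 < ρ := (norm_nonneg _).trans_lt h
  refine ⟨by linarith, by linarith, h2, max (-r₀) (min (inner ℝ y ph) r₀), ?_, ?_⟩
  · rw [abs_le]
    exact ⟨le_max_left _ _, max_le (by linarith) (min_le_right _ _)⟩
  · set l : ℝ := inner ℝ y ph with hl
    have h5 : |l - max (-r₀) (min l r₀)| < ρ := by
      rcases le_total l r₀ with h6 | h6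
      · rw [min_eq_left h6]
        rcases le_total (-r₀) l with h7 | h7
        · rw [max_eq_right h7, sub_self, abs_zero]; exact hρ
        · rw [max_eq_left h7, abs_lt]
          have := neg_abs_le l
          constructor <;> linarith
      · rw [min_eq_right h6, max_eq_right (by linarith), abs_lt]
        have := le_abs_self l
        constructor <;> linarith
    have e1 : y - max (-r₀) (min l r₀) • ph = (l - max (-r₀) (min l r₀)) • ph + prp ph y := by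
      conv_lhs => rw [eq_split ph y, ← hl]
      module
    calc ‖y - max (-r₀) (min l r₀) • ph‖
        ≤ ‖(l - max (-r₀) (min l r₀)) • ph‖ + ‖prp ph y‖ := by rw [e1]; exact norm_add_le _ _
      _ = |l - max (-r₀) (min l r₀)| + ‖prp ph y‖ := by
          rw [norm_smul, hph, mul_one, Real.norm_eq_abs]
      _ < 2 * ρ := by linarith

end FoldAlg

section Near

variable {T V κ ι : Type*} [TopologicalSpace T] [NormedAddCommGroup V] [InnerProductSpace ℝ V]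
  [Fintype ι] [DecidableEq ι] {i₀ : ι} {e : V} {ε R M K : T → ℝ} {D : T → HData κ (ι → ℝ) V}
  {τ : T} {x : (ℝ × (ι → ℝ)) × V}

theorem HAdm.hr0 {ε R M K : ℝ} {D : HData κ (ι → ℝ) V} (hA : HAdm i₀ ε R M K D) : 0 < D.r0 := by
  have := hA.hr
  have := hA.hε
  linarith

theorem HAdm.hM0 {ε R M K : ℝ} {D : HData κ (ι → ℝ) V} (hA : HAdm i₀ ε R M K D) : 0 < M := by
  have := hA.hM
  have := hA.hε
  have := hA.hR
  linarith

theorem HAdm.hc {ε R M K : ℝ} {D : HData κ (ι → ℝ) V} (hA : HAdm i₀ ε R M K D) : |D.c| < 1 := by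
  have := hA.h1
  have h2 := hA.hr0
  have h3 := hA.hK
  have : 0 < 16 * D.r0 / K := by positivity
  linarith

/-- `M a > - ε g` implies `a > - r₀ g`. -/
theorem HAdm.of_M {ε R M K : ℝ} {D : HData κ (ι → ℝ) V} (hA : HAdm i₀ ε R M K D) {a g : ℝ}
    (hg : 0 ≤ g) (h : -(ε * g) < M * a) : -(D.r0 * g) < a := by
  have h1 := hA.hM0
  by_contra hcon
  push Not at hcon
  have h2 : M * a ≤ M * (-(D.r0 * g)) := mul_le_mul_of_nonneg_left hcon h1.le
  have h3 : ε * g ≤ M * D.r0 * g := mul_le_mul_of_nonneg_right (hA.hR.trans hA.hMr) hg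
  nlinarith

theorem tp_sh (a : κ ⊕ Bool) : (hplates i₀ e ε R M K D).tp τ (.sh a) x =
    ε τ * ‖x.1‖ - ‖x.2 - ‖x.1‖ • (D τ).cen i₀ a (kap x.1)‖ := rfl

theorem tp_fold : (hplates i₀ e ε R M K D).tp τ .fold x =
    ε τ * ‖x.1‖ - ‖foldw ((D τ).dep i₀ (K τ) x.1) ((D τ).ph (wl i₀ (D τ).c (kap x.1)))
        (x.2 - ‖x.1‖ • (D τ).m (wl i₀ (D τ).c (kap x.1)))‖ := rfl

theorem lt_tp_of_lt_rho {a : HIx κ} {c : ℝ} (h : c < (hplates i₀ e ε R M K D).rho τ a x) :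
    c < (hplates i₀ e ε R M K D).tp τ a x ∧ c < (hplates i₀ e ε R M K D).σ τ a x :=
  lt_min_iff.mp h

theorem le_tp_of_le_rho {a : HIx κ} {c : ℝ} (h : c ≤ (hplates i₀ e ε R M K D).rho τ a x) :
    c ≤ (hplates i₀ e ε R M K D).tp τ a x ∧ c ≤ (hplates i₀ e ε R M K D).σ τ a x :=
  le_min_iff.mp h

/-- Where a sheet of the hairpin is present, the chart point is left of the wall. -/
theorem kap_le_of_rho (hA : HAdm i₀ (ε τ) (R τ) (M τ) (K τ) (D τ)) (hs : x.1 ≠ 0) {a : κ ⊕ Bool}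
    (ha : a.isRight = true)
    (h : -(ε τ * ‖x.1‖) < (hplates i₀ e ε R M K D).rho τ (.sh a) x) :
    kap x.1 i₀ ≤ (D τ).c ∧ K τ * wq i₀ (D τ).c x.1 < -((D τ).r0 * ‖x.1‖) := by
  have h1 := (lt_tp_of_lt_rho h).2
  have hg : 0 < ‖x.1‖ := norm_pos_iff.mpr hs
  cases a with
  | inl a => simp at ha
  | inr b =>
    have h2 : (hplates i₀ e ε R M K D).σ τ (.sh (.inr b)) x =
        min (M τ * (x.1.1 - ‖x.1.2‖ / 2))
          (M τ * (-(K τ * wq i₀ (D τ).c x.1) - 2 * (D τ).r0 * ‖x.1‖)) := rfl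
    rw [h2] at h1
    have h3 := hA.of_M hg.le (h1.trans_le (min_le_right _ _))
    have h4 : K τ * wq i₀ (D τ).c x.1 < -((D τ).r0 * ‖x.1‖) := by linarith
    refine ⟨?_, h4⟩
    have h5 := hA.hr0
    have h6 : K τ * wq i₀ (D τ).c x.1 < 0 := h4.trans (by have := mul_pos h5 hg; linarith)
    have h7 : wq i₀ (D τ).c x.1 < 0 := by
      by_contra hcon
      push Not at hcon
      have := mul_nonneg hA.hK.le hcon
      linarith
    rw [wq_eq hs] at h7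
    have h8 := gmax_pos hs
    by_contra hcon
    push Not at hcon
    have : 0 ≤ (kap x.1 i₀ - (D τ).c) * (gmax x.1 / 2) :=
      mul_nonneg (by linarith) (by linarith)
    linarith

/-- **(S1)** Two different sheets are never present at the same point. -/
theorem sh_sh_false (hA : HAdm i₀ (ε τ) (R τ) (M τ) (K τ) (D τ)) (hs : x.1 ≠ 0)
    {a a' : κ ⊕ Bool} (hne : a ≠ a')
    (h : -(ε τ * ‖x.1‖) < (hplates i₀ e ε R M K D).rho τ (.sh a) x)
    (h' : -(ε τ * ‖x.1‖) < (hplates i₀ e ε R M K D).rho τ (.sh a') x) : False := by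
  have hg : 0 < ‖x.1‖ := norm_pos_iff.mpr hs
  have h1 := (lt_tp_of_lt_rho h).1
  have h1' := (lt_tp_of_lt_rho h').1
  rw [tp_sh] at h1 h1'
  have h2 := hA.hd a a' hne (kap x.1) (kap_mem x.1) (by
    rintro (h3 | h3)
    · exact (kap_le_of_rho hA hs h3 h).1
    · exact (kap_le_of_rho hA hs h3 h').1)
  have h3 : ‖x.1‖ * ‖(D τ).cen i₀ a (kap x.1) - (D τ).cen i₀ a' (kap x.1)‖ <
      4 * ε τ * ‖x.1‖ := by
    rw [← Real.norm_of_nonneg hg.le, ← norm_smul, Real.norm_of_nonneg hg.le, smul_sub]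
    have e1 : ‖x.1‖ • (D τ).cen i₀ a (kap x.1) - ‖x.1‖ • (D τ).cen i₀ a' (kap x.1) =
        (x.2 - ‖x.1‖ • (D τ).cen i₀ a' (kap x.1)) - (x.2 - ‖x.1‖ • (D τ).cen i₀ a (kap x.1)) := by
      abel
    rw [e1]
    have := norm_sub_le (x.2 - ‖x.1‖ • (D τ).cen i₀ a' (kap x.1))
      (x.2 - ‖x.1‖ • (D τ).cen i₀ a (kap x.1))
    linarith
  have h4 : 4 * ε τ * ‖x.1‖ ≤ ‖x.1‖ * ‖(D τ).cen i₀ a (kap x.1) - (D τ).cen i₀ a' (kap x.1)‖ := by
    rw [mul_comm (4 * ε τ)]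
    exact mul_le_mul_of_nonneg_left h2 hg.le
  linarith

/-- The fold plate is present only near the wall and near the segment of the tip. -/
theorem fold_present (hA : HAdm i₀ (ε τ) (R τ) (M τ) (K τ) (D τ)) (hs : x.1 ≠ 0)
    (hph : ‖(D τ).ph (wl i₀ (D τ).c (kap x.1))‖ = 1) {ρ : ℝ} (hρ : ρ ≤ 2 * ε τ)
    (h : -(ε τ * ‖x.1‖) < (hplates i₀ e ε R M K D).σ τ .fold x)
    (h' : ‖foldw ((D τ).dep i₀ (K τ) x.1) ((D τ).ph (wl i₀ (D τ).c (kap x.1)))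
        (x.2 - ‖x.1‖ • (D τ).m (wl i₀ (D τ).c (kap x.1)))‖ < ρ * ‖x.1‖) :
    |kap x.1 i₀ - (D τ).c| ≤ 16 * (D τ).r0 / K τ ∧
    ∃ μ : ℝ, |μ| ≤ (D τ).r0 ∧ ‖x.2 - ‖x.1‖ • ((D τ).m (wl i₀ (D τ).c (kap x.1)) +
      μ • (D τ).ph (wl i₀ (D τ).c (kap x.1)))‖ < 2 * ρ * ‖x.1‖ := by
  have hg : 0 < ‖x.1‖ := norm_pos_iff.mpr hs
  have hr0 := hA.hr0
  have hK := hA.hK
  have hM := hA.hM0
  have h2 : (hplates i₀ e ε R M K D).σ τ .fold x =
      min (M τ * (x.1.1 - ‖x.1.2‖ / 2))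
        (M τ * (K τ * wq i₀ (D τ).c x.1 + 4 * (D τ).r0 * ‖x.1‖)) := rfl
  rw [h2] at h
  have h3 := hA.of_M hg.le (h.trans_le (min_le_right _ _))
  have hd : -((D τ).r0 * ‖x.1‖) ≤ (D τ).dep i₀ (K τ) x.1 := le_max_right _ _
  obtain ⟨f1, -, -, μ, f4, f5⟩ := fold_near hph (mul_nonneg hr0.le hg.le) hd h'
  have h4 : K τ * wq i₀ (D τ).c x.1 < ρ * ‖x.1‖ := lt_of_le_of_lt (le_max_left _ _) f1
  have h5 : ρ ≤ (D τ).r0 := by
    have := hA.hr
    have := hA.hε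
    linarith
  have h6 : K τ * wq i₀ (D τ).c x.1 < 5 * (D τ).r0 * ‖x.1‖ := by nlinarith
  have h7 : -(5 * (D τ).r0 * ‖x.1‖) < K τ * wq i₀ (D τ).c x.1 := by linarith
  constructor
  · rw [wq_eq hs] at h6 h7
    have hgm := gmax_pos hs
    have hgn := norm_le_gmax x.1
    have h8 : K τ * (kap x.1 i₀ - (D τ).c) < 16 * (D τ).r0 := by
      by_contra hcon
      push Not at hcon
      have h9 : 16 * (D τ).r0 * (gmax x.1 / 2) ≤
          K τ * (kap x.1 i₀ - (D τ).c) * (gmax x.1 / 2) :=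
        mul_le_mul_of_nonneg_right hcon (by linarith)
      nlinarith
    have h9 : -(16 * (D τ).r0) < K τ * (kap x.1 i₀ - (D τ).c) := by
      by_contra hcon
      push Not at hcon
      have h9 : K τ * (kap x.1 i₀ - (D τ).c) * (gmax x.1 / 2) ≤
          -(16 * (D τ).r0) * (gmax x.1 / 2) :=
        mul_le_mul_of_nonneg_right hcon (by linarith)
      nlinarith
    rw [le_div_iff₀ hK, ← abs_of_pos hK, ← abs_mul, abs_le]
    constructor <;> linarith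
  · refine ⟨μ / ‖x.1‖, ?_, ?_⟩
    · rw [abs_div, abs_of_pos hg, div_le_iff₀ hg]
      exact f4
    · have e1 : x.2 - ‖x.1‖ • ((D τ).m (wl i₀ (D τ).c (kap x.1)) +
          (μ / ‖x.1‖) • (D τ).ph (wl i₀ (D τ).c (kap x.1))) =
          x.2 - ‖x.1‖ • (D τ).m (wl i₀ (D τ).c (kap x.1)) -
            μ • (D τ).ph (wl i₀ (D τ).c (kap x.1)) := by
        rw [smul_add, smul_smul, mul_div_cancel₀ _ hg.ne']
        abel
      rw [e1]
      linarith

/-- Where the fold plate is present, the wall is not far on the right. -/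
theorem wq_gt_of_fold (hA : HAdm i₀ (ε τ) (R τ) (M τ) (K τ) (D τ))
    (h : -(ε τ * ‖x.1‖) < (hplates i₀ e ε R M K D).σ τ .fold x) :
    -(5 * (D τ).r0 * ‖x.1‖) < K τ * wq i₀ (D τ).c x.1 := by
  have h2 : (hplates i₀ e ε R M K D).σ τ .fold x =
      min (M τ * (x.1.1 - ‖x.1.2‖ / 2))
        (M τ * (K τ * wq i₀ (D τ).c x.1 + 4 * (D τ).r0 * ‖x.1‖)) := rfl
  rw [h2] at h
  have h3 := hA.of_M (norm_nonneg _) (h.trans_le (min_le_right _ _))
  linarith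

/-- Where the fold plate and a sheet of the hairpin are both present, one is in the overlap
zone. -/
theorem zone_of_both (hA : HAdm i₀ (ε τ) (R τ) (M τ) (K τ) (D τ)) (hs : x.1 ≠ 0) {b : Bool}
    (h : -(ε τ * ‖x.1‖) < (hplates i₀ e ε R M K D).rho τ (.sh (.inr b)) x)
    (h' : -(ε τ * ‖x.1‖) < (hplates i₀ e ε R M K D).rho τ .fold x) :
    -(5 * (D τ).r0 * ‖x.1‖) ≤ K τ * wq i₀ (D τ).c x.1 ∧
      K τ * wq i₀ (D τ).c x.1 ≤ -((D τ).r0 * ‖x.1‖) :=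
  ⟨(wq_gt_of_fold hA (lt_tp_of_lt_rho h').2).le, (kap_le_of_rho hA hs rfl h).2.le⟩

/-- **(S2)** The fold plate and the other sheets are never present at the same point. -/
theorem inl_fold_false (hA : HAdm i₀ (ε τ) (R τ) (M τ) (K τ) (D τ)) (hs : x.1 ≠ 0)
    (hph : ‖(D τ).ph (wl i₀ (D τ).c (kap x.1))‖ = 1) {a : κ}
    (h : -(ε τ * ‖x.1‖) < (hplates i₀ e ε R M K D).rho τ (.sh (.inl a)) x)
    (h' : -(ε τ * ‖x.1‖) < (hplates i₀ e ε R M K D).rho τ .fold x) : False := by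
  have hg : 0 < ‖x.1‖ := norm_pos_iff.mpr hs
  have h1 := (lt_tp_of_lt_rho h).1
  obtain ⟨h2, h3⟩ := lt_tp_of_lt_rho h'
  rw [tp_sh] at h1
  rw [tp_fold] at h2
  obtain ⟨h4, μ, hμ, h5⟩ := fold_present hA hs hph (ρ := 2 * ε τ) le_rfl h3 (by linarith)
  have h6 := hA.ht a (kap x.1) (kap_mem x.1) h4 μ hμ
  have h7 : ‖x.1‖ * ‖(D τ).b a (kap x.1) - ((D τ).m (wl i₀ (D τ).c (kap x.1)) +
      μ • (D τ).ph (wl i₀ (D τ).c (kap x.1)))‖ < 6 * ε τ * ‖x.1‖ := by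
    rw [← Real.norm_of_nonneg hg.le, ← norm_smul, Real.norm_of_nonneg hg.le, smul_sub]
    have e1 : ‖x.1‖ • (D τ).b a (kap x.1) - ‖x.1‖ • ((D τ).m (wl i₀ (D τ).c (kap x.1)) +
        μ • (D τ).ph (wl i₀ (D τ).c (kap x.1))) =
        (x.2 - ‖x.1‖ • ((D τ).m (wl i₀ (D τ).c (kap x.1)) +
        μ • (D τ).ph (wl i₀ (D τ).c (kap x.1)))) - (x.2 - ‖x.1‖ • (D τ).b a (kap x.1)) := by
      abel
    rw [e1]
    refine (norm_sub_le _ _).trans_lt ?_
    have h8 : ‖x.2 - ‖x.1‖ • (D τ).b a (kap x.1)‖ < 2 * ε τ * ‖x.1‖ := by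
      have h9 : (D τ).cen i₀ (Sum.inl a) (kap x.1) = (D τ).b a (kap x.1) := rfl
      rw [h9] at h1
      linarith
    linarith
  have h8 : 8 * ε τ * ‖x.1‖ ≤ ‖x.1‖ * ‖(D τ).b a (kap x.1) -
      ((D τ).m (wl i₀ (D τ).c (kap x.1)) + μ • (D τ).ph (wl i₀ (D τ).c (kap x.1)))‖ := by
    rw [mul_comm (8 * ε τ)]
    exact mul_le_mul_of_nonneg_left h6 hg.le
  have := mul_pos hA.hε hg
  linarith

/-- In the zone where the fold plate consists of two sheets: the depth, and the rigidity. -/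
theorem zone_facts (hA : HAdm i₀ (ε τ) (R τ) (M τ) (K τ) (D τ)) (hs : x.1 ≠ 0)
    (hz : -(5 * (D τ).r0 * ‖x.1‖) ≤ K τ * wq i₀ (D τ).c x.1)
    (hz' : K τ * wq i₀ (D τ).c x.1 ≤ -((D τ).r0 * ‖x.1‖)) :
    (D τ).dep i₀ (K τ) x.1 = -((D τ).r0 * ‖x.1‖) ∧
    (D τ).cen i₀ (.inr true) (kap x.1) = (D τ).m (wl i₀ (D τ).c (kap x.1)) +
      (D τ).r0 • (D τ).ph (wl i₀ (D τ).c (kap x.1)) ∧
    (D τ).cen i₀ (.inr false) (kap x.1) = (D τ).m (wl i₀ (D τ).c (kap x.1)) -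
      (D τ).r0 • (D τ).ph (wl i₀ (D τ).c (kap x.1)) ∧
    (D τ).nor i₀ (.inr true) (kap x.1) = (D τ).nw (wl i₀ (D τ).c (kap x.1)) ∧
    (D τ).nor i₀ (.inr false) (kap x.1) =
      rfl' ((D τ).ph (wl i₀ (D τ).c (kap x.1))) ((D τ).nw (wl i₀ (D τ).c (kap x.1))) := by
  have hg : 0 < ‖x.1‖ := norm_pos_iff.mpr hs
  have hr0 := hA.hr0
  have hK := hA.hK
  have hgm := gmax_pos hs
  have hgn := norm_le_gmax x.1
  have h1 : (D τ).dep i₀ (K τ) x.1 = -((D τ).r0 * ‖x.1‖) := max_eq_right hz'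
  rw [wq_eq hs] at hz hz'
  have h2 : kap x.1 i₀ ≤ (D τ).c := by
    by_contra hcon
    push Not at hcon
    have h3 : 0 ≤ K τ * ((kap x.1 i₀ - (D τ).c) * (gmax x.1 / 2)) :=
      mul_nonneg hK.le (mul_nonneg (by linarith) (by linarith))
    have := mul_pos hr0 hg
    linarith
  have h3 : (D τ).c - 16 * (D τ).r0 / K τ ≤ kap x.1 i₀ := by
    rw [sub_le_comm, le_div_iff₀ hK]
    by_contra hcon
    push Not at hcon
    have h4 : 16 * (D τ).r0 * (gmax x.1 / 2) < ((D τ).c - kap x.1 i₀) * K τ * (gmax x.1 / 2) :=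
      mul_lt_mul_of_pos_right hcon (by linarith)
    nlinarith
  have h4 : lf i₀ (D τ).c (kap x.1) = kap x.1 := by
    unfold lf
    rw [min_eq_left h2]
    exact Function.update_eq_self _ _
  obtain ⟨g1, g2, g3, g4⟩ := hA.hg (kap x.1) (kap_mem x.1) h3 h2
  refine ⟨h1, ?_, ?_, ?_, ?_⟩
  · show (D τ).bk (lf i₀ (D τ).c (kap x.1)) = _
    rw [h4, g1]
  · show (D τ).bt (lf i₀ (D τ).c (kap x.1)) = _
    rw [h4, g2]
  · show (D τ).nk (lf i₀ (D τ).c (kap x.1)) = _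
    rw [h4, g3]
  · show (D τ).nt (lf i₀ (D τ).c (kap x.1)) = _
    rw [h4, g4]

/-- The coordinate of `v` along the tip direction. -/
noncomputable def HData.la (i₀ : ι) (D : HData κ (ι → ℝ) V) (x : (ℝ × (ι → ℝ)) × V) : ℝ :=
  inner ℝ (x.2 - ‖x.1‖ • D.m (wl i₀ D.c (kap x.1))) (D.ph (wl i₀ D.c (kap x.1)))

theorem wfold_eq : (hplates i₀ e ε R M K D).w τ .fold x =
    foldw ((D τ).dep i₀ (K τ) x.1) ((D τ).ph (wl i₀ (D τ).c (kap x.1)))
        (x.2 - ‖x.1‖ • (D τ).m (wl i₀ (D τ).c (kap x.1))) := rfl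

theorem wsh_eq (a : κ ⊕ Bool) : (hplates i₀ e ε R M K D).w τ (.sh a) x =
    x.2 - ‖x.1‖ • (D τ).cen i₀ a (kap x.1) := rfl

theorem nsh_eq (a : κ ⊕ Bool) : (hplates i₀ e ε R M K D).ν τ (.sh a) x =
    (D τ).nor i₀ a (kap x.1) := rfl

theorem nfold_eq : (hplates i₀ e ε R M K D).ν τ .fold x =
    (D τ).nw (wl i₀ (D τ).c (kap x.1)) := rfl

/-- **(K)**, the sheet `k`: in the overlap zone, for `0 ≤ la`, the fold plate is the sheet `k`. -/
theorem fold_eq_k (hA : HAdm i₀ (ε τ) (R τ) (M τ) (K τ) (D τ)) (hs : x.1 ≠ 0)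
    (hz : -(5 * (D τ).r0 * ‖x.1‖) ≤ K τ * wq i₀ (D τ).c x.1)
    (hz' : K τ * wq i₀ (D τ).c x.1 ≤ -((D τ).r0 * ‖x.1‖)) (hla : 0 ≤ (D τ).la i₀ x) :
    (hplates i₀ e ε R M K D).w τ .fold x = (hplates i₀ e ε R M K D).w τ (.sh (.inr true)) x ∧
    (hplates i₀ e ε R M K D).ν τ .fold x = (hplates i₀ e ε R M K D).ν τ (.sh (.inr true)) x := by
  obtain ⟨h1, h2, -, h3, -⟩ := zone_facts hA hs hz hz'
  rw [wfold_eq, wsh_eq, nsh_eq, nfold_eq, h1, h2, h3]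
  refine ⟨?_, rfl⟩
  unfold HData.la at hla
  unfold foldw
  rw [abs_of_nonneg hla]
  module

/-- **(K)**, the sheet `t`: in the overlap zone, for `la ≤ 0`, the fold plate is the reflection of
the sheet `t`. -/
theorem fold_eq_t (hA : HAdm i₀ (ε τ) (R τ) (M τ) (K τ) (D τ)) (hs : x.1 ≠ 0)
    (hph : ‖(D τ).ph (wl i₀ (D τ).c (kap x.1))‖ = 1)
    (hz : -(5 * (D τ).r0 * ‖x.1‖) ≤ K τ * wq i₀ (D τ).c x.1)
    (hz' : K τ * wq i₀ (D τ).c x.1 ≤ -((D τ).r0 * ‖x.1‖)) (hla : (D τ).la i₀ x ≤ 0) :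
    (hplates i₀ e ε R M K D).w τ .fold x = rfl' ((D τ).ph (wl i₀ (D τ).c (kap x.1)))
      ((hplates i₀ e ε R M K D).w τ (.sh (.inr false)) x) ∧
    (hplates i₀ e ε R M K D).ν τ (.sh (.inr false)) x =
      rfl' ((D τ).ph (wl i₀ (D τ).c (kap x.1))) ((hplates i₀ e ε R M K D).ν τ .fold x) := by
  obtain ⟨h1, -, h2, -, h3⟩ := zone_facts hA hs hz hz'
  rw [wfold_eq, wsh_eq, nsh_eq, nfold_eq, h1, h2, h3]
  refine ⟨?_, rfl⟩
  unfold HData.la at hla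
  set ph := (D τ).ph (wl i₀ (D τ).c (kap x.1)) with hphd
  set m := (D τ).m (wl i₀ (D τ).c (kap x.1)) with hmd
  have e1 : x.2 - ‖x.1‖ • (m - (D τ).r0 • ph) = (x.2 - ‖x.1‖ • m) + (‖x.1‖ * (D τ).r0) • ph := by
    module
  rw [e1]
  unfold foldw rfl'
  rw [abs_of_nonpos hla, inner_add_left, real_inner_smul_left, real_inner_self_eq_norm_sq, hph]
  module

/-- **(K')** In the overlap zone the sheet `k` is on the side `la > 0`. -/
theorem la_pos_of_k (hA : HAdm i₀ (ε τ) (R τ) (M τ) (K τ) (D τ)) (hs : x.1 ≠ 0)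
    (hph : ‖(D τ).ph (wl i₀ (D τ).c (kap x.1))‖ = 1)
    (hz : -(5 * (D τ).r0 * ‖x.1‖) ≤ K τ * wq i₀ (D τ).c x.1)
    (hz' : K τ * wq i₀ (D τ).c x.1 ≤ -((D τ).r0 * ‖x.1‖))
    (h : 0 ≤ (hplates i₀ e ε R M K D).tp τ (.sh (.inr true)) x) : 0 < (D τ).la i₀ x := by
  obtain ⟨-, h2, -, -, -⟩ := zone_facts hA hs hz hz'
  have hg : 0 < ‖x.1‖ := norm_pos_iff.mpr hs
  rw [tp_sh, h2] at h
  unfold HData.la
  set ph := (D τ).ph (wl i₀ (D τ).c (kap x.1)) with hphd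
  set m := (D τ).m (wl i₀ (D τ).c (kap x.1)) with hmd
  have h3 : |inner ℝ (x.2 - ‖x.1‖ • (m + (D τ).r0 • ph)) ph| ≤ ε τ * ‖x.1‖ := by
    refine (abs_real_inner_le_norm _ _).trans ?_
    rw [hph, mul_one]
    linarith
  have e1 : inner ℝ (x.2 - ‖x.1‖ • (m + (D τ).r0 • ph)) ph =
      inner ℝ (x.2 - ‖x.1‖ • m) ph - ‖x.1‖ * (D τ).r0 := by
    have e2 : x.2 - ‖x.1‖ • (m + (D τ).r0 • ph) = (x.2 - ‖x.1‖ • m) - (‖x.1‖ * (D τ).r0) • ph := by
      module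
    rw [e2, inner_sub_left, real_inner_smul_left, real_inner_self_eq_norm_sq, hph]
    ring
  rw [e1] at h3
  have h4 := (abs_le.mp h3).1
  have h5 : ε τ * ‖x.1‖ < ‖x.1‖ * (D τ).r0 := by
    rw [mul_comm]
    refine mul_lt_mul_of_pos_left ?_ hg
    have := hA.hr
    have := hA.hε
    linarith
  linarith

/-- **(K')** In the overlap zone the sheet `t` is on the side `la < 0`. -/
theorem la_neg_of_t (hA : HAdm i₀ (ε τ) (R τ) (M τ) (K τ) (D τ)) (hs : x.1 ≠ 0)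
    (hph : ‖(D τ).ph (wl i₀ (D τ).c (kap x.1))‖ = 1)
    (hz : -(5 * (D τ).r0 * ‖x.1‖) ≤ K τ * wq i₀ (D τ).c x.1)
    (hz' : K τ * wq i₀ (D τ).c x.1 ≤ -((D τ).r0 * ‖x.1‖))
    (h : 0 ≤ (hplates i₀ e ε R M K D).tp τ (.sh (.inr false)) x) : (D τ).la i₀ x < 0 := by
  obtain ⟨-, -, h2, -, -⟩ := zone_facts hA hs hz hz'
  have hg : 0 < ‖x.1‖ := norm_pos_iff.mpr hs
  rw [tp_sh, h2] at h
  unfold HData.la
  set ph := (D τ).ph (wl i₀ (D τ).c (kap x.1)) with hphd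
  set m := (D τ).m (wl i₀ (D τ).c (kap x.1)) with hmd
  have h3 : |inner ℝ (x.2 - ‖x.1‖ • (m - (D τ).r0 • ph)) ph| ≤ ε τ * ‖x.1‖ := by
    refine (abs_real_inner_le_norm _ _).trans ?_
    rw [hph, mul_one]
    linarith
  have e1 : inner ℝ (x.2 - ‖x.1‖ • (m - (D τ).r0 • ph)) ph =
      inner ℝ (x.2 - ‖x.1‖ • m) ph + ‖x.1‖ * (D τ).r0 := by
    have e2 : x.2 - ‖x.1‖ • (m - (D τ).r0 • ph) = (x.2 - ‖x.1‖ • m) + (‖x.1‖ * (D τ).r0) • ph := by
      module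
    rw [e2, inner_add_left, real_inner_smul_left, real_inner_self_eq_norm_sq, hph]
    ring
  rw [e1] at h3
  have h4 := (abs_le.mp h3).2
  have h5 : ε τ * ‖x.1‖ < ‖x.1‖ * (D τ).r0 := by
    rw [mul_comm]
    refine mul_lt_mul_of_pos_left ?_ hg
    have := hA.hr
    have := hA.hε
    linarith
  linarith

/-- **(V)** Where a sheet is present, `v` is in the open ball of radius `R g`. -/
theorem norm_lt_of_sh (hA : HAdm i₀ (ε τ) (R τ) (M τ) (K τ) (D τ)) (hs : x.1 ≠ 0) {a : κ ⊕ Bool}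
    (h : 0 ≤ (hplates i₀ e ε R M K D).rho τ (.sh a) x) : ‖x.2‖ < R τ * ‖x.1‖ := by
  have hg : 0 < ‖x.1‖ := norm_pos_iff.mpr hs
  have h1 := (le_tp_of_le_rho h).1
  rw [tp_sh] at h1
  have h2 := hA.hb a (kap x.1) (kap_mem x.1)
  have h3 : ‖x.2‖ ≤ ‖x.2 - ‖x.1‖ • (D τ).cen i₀ a (kap x.1)‖ +
      ‖x.1‖ * ‖(D τ).cen i₀ a (kap x.1)‖ := by
    have := norm_add_le (x.2 - ‖x.1‖ • (D τ).cen i₀ a (kap x.1))
      (‖x.1‖ • (D τ).cen i₀ a (kap x.1))
    rw [sub_add_cancel, norm_smul, norm_norm] at this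
    exact this
  have h4 : ‖x.1‖ * (‖(D τ).cen i₀ a (kap x.1)‖ + 2 * ε τ) < ‖x.1‖ * R τ :=
    mul_lt_mul_of_pos_left h2 hg
  have h5 := mul_pos hA.hε hg
  nlinarith

/-- **(V)** Where the fold plate is present, `v` is in the open ball of radius `R g`. -/
theorem norm_lt_of_fold (hA : HAdm i₀ (ε τ) (R τ) (M τ) (K τ) (D τ)) (hs : x.1 ≠ 0)
    (hph : ‖(D τ).ph (wl i₀ (D τ).c (kap x.1))‖ = 1)
    (h : 0 ≤ (hplates i₀ e ε R M K D).rho τ .fold x) : ‖x.2‖ < R τ * ‖x.1‖ := by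
  have hg : 0 < ‖x.1‖ := norm_pos_iff.mpr hs
  have hε := hA.hε
  obtain ⟨h1, h1'⟩ := le_tp_of_le_rho h
  rw [tp_fold] at h1
  have h5 := mul_pos hε hg
  have hr0 := hA.hr0
  have h6 : ‖foldw ((D τ).dep i₀ (K τ) x.1) ((D τ).ph (wl i₀ (D τ).c (kap x.1)))
      (x.2 - ‖x.1‖ • (D τ).m (wl i₀ (D τ).c (kap x.1)))‖ < 2 * ε τ * ‖x.1‖ := by linarith
  obtain ⟨-, μ, hμ, h7⟩ := fold_present hA hs hph (ρ := 2 * ε τ) le_rfl
    (lt_of_lt_of_le (by linarith) h1') h6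
  have hmem : wl i₀ (D τ).c (kap x.1) ∈ closedBall (0 : ι → ℝ) 1 := by
    rw [mem_closedBall_zero_iff]
    exact wl_mem hA.hc.le (norm_kap_le x.1)
  have h2 := hA.hm _ hmem (wl_apply _ _ _)
  set ph := (D τ).ph (wl i₀ (D τ).c (kap x.1)) with hphd
  set m := (D τ).m (wl i₀ (D τ).c (kap x.1)) with hmd
  have h3 : ‖x.2‖ ≤ ‖x.2 - ‖x.1‖ • (m + μ • ph)‖ + ‖x.1‖ * (‖m‖ + (D τ).r0) := by
    have h8 := norm_add_le (x.2 - ‖x.1‖ • (m + μ • ph)) (‖x.1‖ • (m + μ • ph))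
    rw [sub_add_cancel, norm_smul, norm_norm] at h8
    have h9 : ‖m + μ • ph‖ ≤ ‖m‖ + (D τ).r0 := by
      refine (norm_add_le _ _).trans ?_
      rw [norm_smul, hph, mul_one, Real.norm_eq_abs]
      linarith
    have h10 := mul_le_mul_of_nonneg_left h9 hg.le
    linarith
  have h4 : ‖x.1‖ * (‖m‖ + 2 * (D τ).r0) < ‖x.1‖ * R τ := mul_lt_mul_of_pos_left h2 hg
  have h11 := hA.hr
  have h12 : 8 * ε τ * ‖x.1‖ ≤ (D τ).r0 * ‖x.1‖ := mul_le_mul_of_nonneg_right h11 hg.le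
  nlinarith

end Near

end Vale.Agent.P268.T
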