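import Vale.Agent.P268.T.H293.ZipDef

/-!
# P268, topological half: ZIP, the global conditions of the plates
-/

set_option linter.unusedSectionVars false

namespace Vale.Agent.P268.T.Z293

open Set Filter Topology Metric

theorem c01_mem (t : ℝ) : c01 t ∈ Icc (0 : ℝ) 1 :=
  ⟨le_max_left _ _, max_le zero_le_one (min_le_right _ _)⟩

theorem c01_of_le {t : ℝ} (ht : t ≤ 0) : c01 t = 0 := by
  unfold c01
  rw [min_eq_left (by linarith), max_eq_left ht]

theorem c01_of_ge {t : ℝ} (ht : 1 ≤ t) : c01 t = 1 := by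
  unfold c01
  rw [min_eq_right ht, max_eq_right zero_le_one]

theorem continuous_c01 : Continuous c01 := by
  unfold c01
  fun_prop

variable {T P V A : Type*} [TopologicalSpace T] [NormedAddCommGroup P] [NormedSpace ℝ P]
  [NormedAddCommGroup V] [InnerProductSpace ℝ V] [DecidableEq A]

theorem zcen_self (j k : A) (b : A → P → V) (θ : ℝ) (x : P) :
    zcen j k b θ k x = b k x + θ • (b j x - b k x) := if_pos rfl

theorem zcen_of_ne (j : A) {i k : A} (h : i ≠ k) (b : A → P → V) (θ : ℝ) (x : P) :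
    zcen j k b θ i x = b i x := if_neg h

theorem zcen_base_zero (j k : A) (b : A → P → V) (i : A) (x : P) : zcen j k b 0 i x = b i x := by
  by_cases h : i = k
  · subst h
    rw [zcen_self, zero_smul, add_zero]
  · exact zcen_of_ne j h b 0 x

section Base

variable {s : Set T} {e : V} {ε R M : ℝ} {j k : A} {b ν : T → A → P → V} {G : T → ℝ × P → ℝ}

theorem norm_zcen_le {b : A → P → V} (hA : Adm ε R M b) {θ : ℝ} (hθ : θ ∈ Icc (0 : ℝ) 1) (i : A)
    {x : P} (hx : x ∈ closedBall (0 : P) 1) : ‖zcen j k b θ i x‖ ≤ R := by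
  have h0 : ∀ i, ‖b i x‖ ≤ R := fun i => by
    have h1 := hA.hb i x hx
    have h2 := hA.hε
    linarith
  by_cases h : i = k
  · subst h
    rw [zcen_self]
    have e1 : b i x + θ • (b j x - b i x) = (1 - θ) • b i x + θ • b j x := by module
    rw [e1]
    refine (norm_add_le _ _).trans ?_
    rw [norm_smul, norm_smul, Real.norm_of_nonneg hθ.1, Real.norm_of_nonneg (by linarith [hθ.2])]
    have h1 := mul_le_mul_of_nonneg_left (h0 i) (show 0 ≤ 1 - θ by linarith [hθ.2])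
    have h2 := mul_le_mul_of_nonneg_left (h0 j) hθ.1
    linarith
  · rw [zcen_of_ne j h]
    exact h0 i

theorem cwa_zcen (h : ZFam s e ε R M j k b ν G) (i : A) {τ₀ : T} (hτ₀ : τ₀ ∈ s)
    {x₀ : (ℝ × P) × V} (hx : x₀.1 ≠ 0) :
    ContinuousWithinAt (fun p : T × ((ℝ × P) × V) =>
      zcen j k (b p.1) (c01 (G p.1 p.2.1 + 1)) i (kap p.2.1)) (s ×ˢ univ) (τ₀, x₀) := by
  have hb : ∀ i, ContinuousWithinAt (fun p : T × ((ℝ × P) × V) => b p.1 i (kap p.2.1))
      (s ×ˢ univ) (τ₀, x₀) := fun i =>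
    cwa_data (f := fun q => b q.1 i q.2) (h.fam.cb i) _ hτ₀ hx
  by_cases hi : i = k
  · subst hi
    have h1 : ContinuousWithinAt (fun p : T × ((ℝ × P) × V) => G p.1 p.2.1) (s ×ˢ univ)
        (τ₀, x₀) := by
      have h2 : ContinuousWithinAt (fun q : T × (ℝ × P) => G q.1 q.2) (s ×ˢ {x | x ≠ 0})
          (τ₀, x₀.1) := h.cG (τ₀, x₀.1) ⟨hτ₀, hx⟩
      have h3 : ContinuousWithinAt (fun p : T × ((ℝ × P) × V) => (p.1, p.2.1))
          (s ×ˢ {x : (ℝ × P) × V | x.1 ≠ 0}) (τ₀, x₀) := by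
        have : Continuous fun p : T × ((ℝ × P) × V) => (p.1, p.2.1) := by fun_prop
        exact this.continuousWithinAt
      have h4 : ContinuousWithinAt (fun p : T × ((ℝ × P) × V) => G p.1 p.2.1)
          (s ×ˢ {x : (ℝ × P) × V | x.1 ≠ 0}) (τ₀, x₀) :=
        ContinuousWithinAt.comp (g := fun q : T × (ℝ × P) => G q.1 q.2)
          (f := fun p : T × ((ℝ × P) × V) => (p.1, p.2.1)) (x := (τ₀, x₀))
          (t := s ×ˢ {x | x ≠ 0}) h2 h3 (fun p hp => ⟨hp.1, hp.2⟩)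
      refine h4.mono_of_mem_nhdsWithin ?_
      have h5 : {x : (ℝ × P) × V | x.1 ≠ 0} ∈ 𝓝 x₀ := by
        have : Continuous fun x : (ℝ × P) × V => x.1 := by fun_prop
        exact (isOpen_compl_singleton.preimage this).mem_nhds hx
      rw [nhdsWithin_prod_eq, nhdsWithin_univ]
      exact prod_mem_prod self_mem_nhdsWithin h5
    have h6 : ContinuousWithinAt (fun p : T × ((ℝ × P) × V) => c01 (G p.1 p.2.1 + 1))
        (s ×ˢ univ) (τ₀, x₀) :=
      continuous_c01.continuousAt.comp_continuousWithinAt (h1.add continuousWithinAt_const)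
    have h7 := (hb i).add (h6.smul ((hb j).sub (hb i)))
    refine h7.congr (fun p _ => ?_) ?_
    · exact zcen_self _ _ _ _ _
    · exact zcen_self _ _ _ _ _
  · refine (hb i).congr (fun p _ => ?_) ?_
    · exact zcen_of_ne j hi _ _ _
    · exact zcen_of_ne j hi _ _ _

theorem continuousOn_zcen (h : ZFam s e ε R M j k b ν G) (i : A) :
    ContinuousOn (fun p : T × ((ℝ × P) × V) =>
      ‖p.2.1‖ • zcen j k (b p.1) (c01 (G p.1 p.2.1 + 1)) i (kap p.2.1)) (s ×ˢ univ) := by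
  rintro ⟨τ₀, x₀⟩ ⟨hτ₀, -⟩
  have hτ₀ : τ₀ ∈ s := hτ₀
  by_cases hx : x₀.1 = 0
  · have hn1 : Tendsto (fun p : T × ((ℝ × P) × V) => ‖p.2.1‖) (𝓝[s ×ˢ univ] (τ₀, x₀))
        (𝓝 ‖x₀.1‖) := by
      have : Continuous fun p : T × ((ℝ × P) × V) => ‖p.2.1‖ := by fun_prop
      exact this.continuousWithinAt
    have hn2 := hn1.mul_const R
    rw [hx, norm_zero, zero_mul] at hn2
    show Tendsto _ _ (𝓝 (‖x₀.1‖ • _))
    rw [hx, norm_zero, zero_smul]
    refine squeeze_zero_norm' ?_ hn2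
    filter_upwards [self_mem_nhdsWithin] with p hp
    rw [norm_smul, norm_norm]
    exact mul_le_mul_of_nonneg_left (norm_zcen_le (h.adm _ hp.1) (c01_mem _) i (kap_mem _))
      (norm_nonneg _)
  · have h1 : ContinuousWithinAt (fun p : T × ((ℝ × P) × V) => ‖p.2.1‖) (s ×ˢ univ)
        (τ₀, x₀) := by
      have : Continuous fun p : T × ((ℝ × P) × V) => ‖p.2.1‖ := by fun_prop
      exact this.continuousWithinAt
    exact h1.smul (cwa_zcen h i hτ₀ hx)

theorem inner_zcen (h : BFam s e b ν) {τ : T} (hτ : τ ∈ s) {x : P} (hx : ‖x‖ = 1) (θ : ℝ)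
    (i : A) : inner ℝ (zcen j k (b τ) θ i x) e = 0 := by
  by_cases hi : i = k
  · subst hi
    rw [zcen_self, inner_add_left, real_inner_smul_left, inner_sub_left, h.bh τ hτ i _ hx,
      h.bh τ hτ j _ hx]
    ring
  · rw [zcen_of_ne j hi, h.bh τ hτ i _ hx]

/-- The imaginary parts of two plates which are nearly active at the same point agree. -/
theorem be_eq_of_ne (h : ZFam s e ε R M j k b ν G) {τ : T} (hτ : τ ∈ s) {x : (ℝ × P) × V}
    (hx : x.1 ≠ 0) {i i' : A} (hne : i ≠ i') (hi' : i' = k)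
    (h1 : ‖x.2 - ‖x.1‖ • zcen j k (b τ) (c01 (G τ x.1 + 1)) i (kap x.1)‖ < 2 * ε * ‖x.1‖)
    (h2 : ‖x.2 - ‖x.1‖ • zcen j k (b τ) (c01 (G τ x.1 + 1)) i' (kap x.1)‖ < 2 * ε * ‖x.1‖) :
    (zpl e ε R M j k b ν G).be τ (some i) x = (zpl e ε R M j k b ν G).be τ (some i') x := by
  subst hi'
  have hg : 0 < ‖x.1‖ := norm_pos_iff.mpr hx
  set θ : ℝ := c01 (G τ x.1 + 1) with hθ
  have hlt : ‖b τ i (kap x.1) - (b τ i' (kap x.1) + θ • (b τ j (kap x.1) - b τ i' (kap x.1)))‖ <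
      4 * ε := by
    rw [zcen_of_ne j hne] at h1
    rw [zcen_self] at h2
    set c := b τ i' (kap x.1) + θ • (b τ j (kap x.1) - b τ i' (kap x.1)) with hc
    have e1 : ‖x.1‖ • (b τ i (kap x.1) - c) =
        (x.2 - ‖x.1‖ • c) - (x.2 - ‖x.1‖ • b τ i (kap x.1)) := by
      rw [smul_sub]; abel
    have h3 := norm_sub_le (x.2 - ‖x.1‖ • c) (x.2 - ‖x.1‖ • b τ i (kap x.1))
    rw [← e1, norm_smul, norm_norm] at h3
    have h4 : ‖x.1‖ * ‖b τ i (kap x.1) - c‖ < ‖x.1‖ * (4 * ε) := by linarith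
    exact lt_of_mul_lt_mul_left h4 hg.le
  by_cases hG : -1 < G τ x.1
  · obtain ⟨p1, p2, p3⟩ := h.par τ hτ x.1 hx hG
    by_cases hij : i = j
    · subst hij
      show inner ℝ (x.2 - ‖x.1‖ • zcen i i' (b τ) θ i (kap x.1)) (ν τ i (kap x.1)) =
        inner ℝ (x.2 - ‖x.1‖ • zcen i i' (b τ) θ i' (kap x.1)) (ν τ i' (kap x.1))
      rw [p1, zcen_of_ne i hne, zcen_self]
      have e1 : x.2 - ‖x.1‖ • (b τ i' (kap x.1) + θ • (b τ i (kap x.1) - b τ i' (kap x.1))) =
          (x.2 - ‖x.1‖ • b τ i (kap x.1)) -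
            (‖x.1‖ * (1 - θ)) • (b τ i' (kap x.1) - b τ i (kap x.1)) := by
        module
      rw [e1, inner_sub_left (x.2 - ‖x.1‖ • b τ i (kap x.1)), real_inner_smul_left, p2, mul_zero,
        sub_zero]
    · have := p3 i hij hne θ (c01_mem _)
      linarith
  · have h0 : θ = 0 := c01_of_le (by linarith [not_lt.mp hG])
    rw [h0, zero_smul, add_zero] at hlt
    have := (h.adm τ hτ).hd i i' hne _ (kap_mem x.1)
    linarith

variable [Fintype A]

/-- **The global conditions of the ZIP plates.** -/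
theorem zbase (h : ZFam s e ε R M j k b ν G) (hε : 0 < ε) :
    (zpl e ε R M j k b ν G).Base s ε (fun x => ‖x.1‖) where
  hη := hε
  cN := by fun_prop
  nN := fun x => norm_nonneg _
  hN := fun k hk x => by rw [Prod.smul_fst, norm_smul, Real.norm_eq_abs, abs_of_nonneg hk]
  cw := by
    have c2 : ContinuousOn (fun p : T × ((ℝ × P) × V) => p.2.2) (s ×ˢ univ) := by fun_prop
    rintro (_ | a)
    · exact c2
    · exact c2.sub (continuousOn_zcen h a)
  cr := by
    have c1 : ContinuousOn (fun p : T × ((ℝ × P) × V) => ‖p.2.1‖) (s ×ˢ univ) := by fun_prop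
    rintro (_ | a)
    · exact continuousOn_const.mul c1
    · exact continuousOn_const.mul c1
  cs := by
    rintro (_ | a)
    · have c1 : ContinuousOn (fun p : T × ((ℝ × P) × V) => ‖p.2.1.2‖ - |p.2.1.1|)
        (s ×ˢ univ) := by fun_prop
      exact continuousOn_const.mul c1
    · have c1 : ContinuousOn (fun p : T × ((ℝ × P) × V) => p.2.1.1 - ‖p.2.1.2‖ / 2)
        (s ×ˢ univ) := by fun_prop
      exact continuousOn_const.mul c1
  cn := by
    rintro (_ | a)
    · exact continuousOn_const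
    · rintro ⟨τ₀, x₀⟩ ⟨hτ₀, hx₀⟩
      exact cwa_data (f := fun q => ν q.1 a q.2) (h.fam.cn a) _ hτ₀ (norm_ne_zero_iff.mp hx₀)
  hw := by
    rintro τ hτ (_ | a) l hl x
    · rfl
    · show (l • x).2 - ‖(l • x).1‖ • zcen j k (b τ) (c01 (G τ (l • x).1 + 1)) a (kap (l • x).1) =
        l • (x.2 - ‖x.1‖ • zcen j k (b τ) (c01 (G τ x.1 + 1)) a (kap x.1))
      rcases hl.eq_or_lt with rfl | hl'
      · simp
      · rw [Prod.smul_fst, Prod.smul_snd, kap_smul hl', h.hG τ hτ l hl', norm_smul,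
          Real.norm_eq_abs, abs_of_nonneg hl, smul_sub, smul_smul]
  hr := by
    rintro τ hτ (_ | a) k hk x
    · show R * ‖(k • x).1‖ = k * (R * ‖x.1‖)
      rw [Prod.smul_fst, norm_smul, Real.norm_eq_abs, abs_of_nonneg hk]
      ring
    · show ε * ‖(k • x).1‖ = k * (ε * ‖x.1‖)
      rw [Prod.smul_fst, norm_smul, Real.norm_eq_abs, abs_of_nonneg hk]
      ring
  hs := by
    rintro τ hτ (_ | a) k hk x
    · show M * (‖(k • x).1.2‖ - |(k • x).1.1|) = k * (M * (‖x.1.2‖ - |x.1.1|))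
      rw [Prod.smul_fst, Prod.smul_fst, Prod.smul_snd, norm_smul, Real.norm_eq_abs, smul_eq_mul,
        abs_mul, abs_of_nonneg hk]
      ring
    · show M * ((k • x).1.1 - ‖(k • x).1.2‖ / 2) = k * (M * (x.1.1 - ‖x.1.2‖ / 2))
      rw [Prod.smul_fst, Prod.smul_fst, Prod.smul_snd, norm_smul, Real.norm_eq_abs, smul_eq_mul,
        abs_of_nonneg hk]
      ring
  hn := by
    rintro τ hτ (_ | a) k hk x
    · rfl
    · show ν τ a (kap (k • x).1) = ν τ a (kap x.1)
      rw [Prod.smul_fst, kap_smul hk]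
  nn := by
    rintro τ hτ (_ | a) x hx
    · exact h.he
    · exact h.fam.nn τ hτ a _ (kap_mem _)
  neg := by
    intro τ hτ a x hx hN
    have h1 : x.1 = 0 := norm_eq_zero.mp hN
    have h2 : x.2 ≠ 0 := fun h2 => hx (Prod.ext h1 h2)
    have h3 : 0 < ‖x.2‖ := norm_pos_iff.mpr h2
    refine lt_of_le_of_lt (min_le_left _ _) ?_
    rcases a with _ | a
    · show R * ‖x.1‖ - ‖x.2‖ < 0
      rw [h1, norm_zero]
      linarith
    · show ε * ‖x.1‖ - ‖x.2 - ‖x.1‖ • zcen j k (b τ) (c01 (G τ x.1 + 1)) a (kap x.1)‖ < 0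
      rw [h1, norm_zero, zero_smul, sub_zero]
      linarith
  sep := by
    intro τ hτ x hN a a' h1 h2
    have hs : x.1 ≠ 0 := norm_ne_zero_iff.mp hN
    have hg : 0 < ‖x.1‖ := norm_pos_iff.mpr hs
    have hAt := h.adm τ hτ
    have hMp : 0 < M := by linarith [hAt.hM, hAt.hε, hAt.hR]
    have hη8 : 8 * ε ≤ M := by linarith [hAt.hM, hAt.hε, hAt.hR]
    have hcol : ∀ {a : Option A}, a = none →
        -ε * ‖x.1‖ < (zpl e ε R M j k b ν G).rho τ a x → |x.1.1| < 2 * ‖x.1.2‖ ∧ x.1.2 ≠ 0 := by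
      rintro a rfl h3
      exact collar hs hMp hη8 (lt_of_lt_of_le h3 (min_le_right _ _))
    have hbe : ∀ i : A, |x.1.1| < 2 * ‖x.1.2‖ → x.1.2 ≠ 0 →
        (zpl e ε R M j k b ν G).be τ (some i) x = inner ℝ x.2 e := by
      intro i hx hp
      have h3 : ‖kap x.1‖ = 1 := norm_kap_of_le hx.le hp
      show inner ℝ (x.2 - ‖x.1‖ • zcen j k (b τ) (c01 (G τ x.1 + 1)) i (kap x.1))
        (ν τ i (kap x.1)) = _
      rw [h.fam.nh τ hτ i _ h3, inner_sub_left, real_inner_smul_left,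
        inner_zcen h.fam hτ h3, mul_zero, sub_zero]
    have hsh : ∀ {a : A}, -ε * ‖x.1‖ < (zpl e ε R M j k b ν G).rho τ (some a) x →
        ‖x.2 - ‖x.1‖ • zcen j k (b τ) (c01 (G τ x.1 + 1)) a (kap x.1)‖ < 2 * ε * ‖x.1‖ := by
      intro a h3
      have h4 : -ε * ‖x.1‖ < ε * ‖x.1‖ -
          ‖x.2 - ‖x.1‖ • zcen j k (b τ) (c01 (G τ x.1 + 1)) a (kap x.1)‖ :=
        lt_of_lt_of_le h3 (min_le_left _ _)
      linarith
    rcases a with _ | a <;> rcases a' with _ | a'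
    · rfl
    · obtain ⟨h3, h4⟩ := hcol rfl h1
      rw [hbe a' h3 h4]
      rfl
    · obtain ⟨h3, h4⟩ := hcol rfl h2
      rw [hbe a h3 h4]
      rfl
    · by_cases haa : a = a'
      · rw [haa]
      · by_cases ha' : a' = k
        · exact be_eq_of_ne h hτ hs haa ha' (hsh h1) (hsh h2)
        · by_cases ha : a = k
          · exact (be_eq_of_ne h hτ hs (Ne.symm haa) ha (hsh h2) (hsh h1)).symm
          · exfalso
            have g1 := hsh h1
            have g2 := hsh h2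
            rw [zcen_of_ne j ha] at g1
            rw [zcen_of_ne j ha'] at g2
            exact haa (sheet_eq (ε := fun _ => ε) (R := fun _ => R) (M := fun _ => M) hAt hs g1 g2)

end Base

end Vale.Agent.P268.T.Z293
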