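import Vale.Agent.P268.T.H69.Idx

/-!
# P268, topological half, route V: the gate multipliers of stage I

The cut-off `RV.cy T a` is a function of the argument; its periodic extension and the marks of the
index function `P0` are joined by a straight path of gate multipliers (`MarkData`).
-/

set_option linter.unusedSectionVars false

namespace Vale.Agent.P268.T.H5

open Set Filter Topology

/-! ### The cut-off as a function of the position -/

/-- The cut-off at the position `x`. -/
noncomputable def cyF (T a : ℕ) (x : ℝ) : ℝ :=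
  RV.clamp01 (2 * (x - (2 * a + 2) - 1 / 4)) - RV.clamp01 (2 * (x - 2 * T - 1 / 4))

theorem continuous_cyF (T a : ℕ) : Continuous (cyF T a) := by
  have h := continuous_clamp01
  unfold cyF
  fun_prop

theorem clamp01_mono {s t : ℝ} (h : s ≤ t) : RV.clamp01 s ≤ RV.clamp01 t :=
  max_le_max le_rfl (min_le_min h le_rfl)

theorem cyF_nonneg {T a : ℕ} (ha : a < T) (x : ℝ) : 0 ≤ cyF T a x := by
  unfold cyF
  have h1 : (a : ℝ) + 1 ≤ T := by exact_mod_cast ha
  have := clamp01_mono (s := 2 * (x - 2 * T - 1 / 4)) (t := 2 * (x - (2 * a + 2) - 1 / 4))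
    (by linarith)
  linarith

theorem cyF_zero (T a : ℕ) : cyF T a 0 = 0 := by
  unfold cyF
  have h1 : (0 : ℝ) ≤ a := by positivity
  have h2 : (0 : ℝ) ≤ T := by positivity
  rw [clamp01_of_le (by linarith), clamp01_of_le (by linarith), sub_self]

theorem cyF_end {T a : ℕ} (ha : a < T) : cyF T a (2 * T + 1) = 0 := by
  unfold cyF
  have h1 : (a : ℝ) + 1 ≤ T := by exact_mod_cast ha
  rw [clamp01_of_ge (by linarith), clamp01_of_ge (by linarith), sub_self]

theorem cyF_turn_zero {T a k : ℕ} (hk : k ≤ a) (ha : a < T) {x : ℝ} (hx : x ≤ 2 * k + 2) :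
    cyF T a x = 0 := by
  unfold cyF
  have h1 : (a : ℝ) + 1 ≤ T := by exact_mod_cast ha
  have h2 : (k : ℝ) ≤ a := by exact_mod_cast hk
  rw [clamp01_of_le (by linarith), clamp01_of_le (by linarith), sub_self]

theorem cyF_turn_one {T a k : ℕ} (hk : a < k) (hT : k < T) {x : ℝ} (h0 : 2 * k + 1 ≤ x)
    (hx : x ≤ 2 * k + 2) : cyF T a x = 1 := by
  unfold cyF
  have h1 : (a : ℝ) + 1 ≤ k := by exact_mod_cast hk
  have h2 : (k : ℝ) + 1 ≤ T := by exact_mod_cast hT
  rw [clamp01_of_ge (by linarith), clamp01_of_le (by linarith), sub_zero]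

/-! ### The position -/

/-- The position in `[0, 2T+1)`. -/
noncomputable def xr (T : ℕ) (θ : ℝ) : ℝ :=
  (2 * T + 1) * Int.fract ((θ + Real.pi) / (2 * Real.pi))

/-- The angle in `[-π, π)`. -/
noncomputable def ar (θ : ℝ) : ℝ :=
  θ - ⌊(θ + Real.pi) / (2 * Real.pi)⌋ * (2 * Real.pi)

theorem xc_ar (T : ℕ) (θ : ℝ) : RV.xc T (ar θ) = xr T θ := by
  have hp := Real.pi_pos
  have h := Int.self_sub_floor ((θ + Real.pi) / (2 * Real.pi))
  unfold RV.xc ar xr
  rw [← h]
  field_simp
  ring

theorem xr_nonneg (T : ℕ) (θ : ℝ) : 0 ≤ xr T θ := by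
  unfold xr
  have := Int.fract_nonneg ((θ + Real.pi) / (2 * Real.pi))
  positivity

theorem xr_lt (T : ℕ) (θ : ℝ) : xr T θ < 2 * T + 1 := by
  unfold xr
  have h := Int.fract_lt_one ((θ + Real.pi) / (2 * Real.pi))
  have h1 : (0 : ℝ) < 2 * T + 1 := by positivity
  nlinarith

theorem P0_add_int (A : ℕ) (n : ℤ) : ∀ θ : ℝ, P0 A (θ + n * (2 * Real.pi)) = P0 A θ + A * n := by
  induction n using Int.induction_on with
  | zero => intro θ; simp
  | succ m ih =>
    intro θ
    have h1 : θ + ((m : ℤ) + 1 : ℤ) * (2 * Real.pi) = (θ + (m : ℤ) * (2 * Real.pi)) + 2 * Real.pi := by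
      push_cast; ring
    rw [h1, P0_add, ih]
    push_cast
    ring
  | pred m ih =>
    intro θ
    have h1 := P0_add A (θ + (-(m : ℤ) - 1 : ℤ) * (2 * Real.pi))
    have h2 : θ + (-(m : ℤ) - 1 : ℤ) * (2 * Real.pi) + 2 * Real.pi =
        θ + (-(m : ℤ) : ℤ) * (2 * Real.pi) := by
      push_cast; ring
    rw [h2, ih] at h1
    push_cast at h1 ⊢
    linarith

theorem P0_ar (A : ℕ) (θ : ℝ) :
    P0 A θ = P0 A (ar θ) + A * ⌊(θ + Real.pi) / (2 * Real.pi)⌋ := by
  have h := P0_add_int A ⌊(θ + Real.pi) / (2 * Real.pi)⌋ (ar θ)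
  rw [← h]
  congr 1
  unfold ar
  ring

/-- The profile on `[0, 2A+1)`. -/
theorem interp_bounds {A : ℕ} {x : ℝ} (h0 : 0 ≤ x) (h1 : x < 2 * A + 1) :
    -(1 / 2) ≤ interp (cP A) x ∧ interp (cP A) x ≤ A - 1 / 2 := by
  rw [interp_cP_eq h0 h1.le]
  constructor
  · have : 0 ≤ ∑ k ∈ Finset.range A, RV.clamp01 (x - (2 * k + 1)) :=
      Finset.sum_nonneg fun k _ => clamp01_nonneg _
    linarith
  · have : ∑ k ∈ Finset.range A, RV.clamp01 (x - (2 * k + 1)) ≤ ∑ k ∈ Finset.range A, (1 : ℝ) :=
      Finset.sum_le_sum fun k _ => clamp01_le_one _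
    simp only [Finset.sum_const, Finset.card_range, nsmul_eq_mul, mul_one] at this
    linarith

/-- Near an integer, one is in the corresponding turn. -/
theorem turn_of_near {A : ℕ} {x : ℝ} (h0 : 0 ≤ x) (h1 : x < 2 * A + 1) {k : ℤ}
    (h : |interp (cP A) x - k| < 3 / 10) : 2 * (k : ℝ) + 1 < x ∧ x < 2 * k + 2 := by
  set j := ⌊x⌋ with hj
  have hj0 : 0 ≤ j := Int.floor_nonneg.mpr h0
  have hjx : (j : ℝ) ≤ x := Int.floor_le x
  have hjx' : x < j + 1 := Int.lt_floor_add_one x
  have hjA : j ≤ 2 * A := by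
    have : (j : ℝ) < 2 * A + 1 := lt_of_le_of_lt hjx h1
    have : j < 2 * A + 1 := by exact_mod_cast this
    omega
  have hfr : Int.fract x = x - j := (Int.self_sub_floor x).symm
  rw [interp, ← hj, cP_of_lt hj0 (by omega), cP_of_lt (by omega) (by omega), hfr, abs_lt] at h
  obtain ⟨l1, l2⟩ := h
  rcases Int.even_or_odd' j with ⟨m, hm | hm⟩
  · exfalso
    have g1 : j / 2 = m := by omega
    have g2 : (j + 1) / 2 = m := by omega
    rw [g1, g2, sub_self, mul_zero, add_zero] at l1 l2
    have h3 : (m : ℝ) - 1 < k := by linarith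
    have h4 : (k : ℝ) < m := by linarith
    have h5 : m - 1 < k := by exact_mod_cast h3
    have h6 : k < m := by exact_mod_cast h4
    omega
  · have g1 : j / 2 = m := by omega
    have g2 : (j + 1) / 2 = m + 1 := by omega
    rw [g1, g2] at l1 l2
    push_cast at l1 l2
    have h3 : (k : ℝ) < m + 1 := by linarith
    have h4 : (m : ℝ) < k + 1 := by linarith
    have h5 : k < m + 1 := by exact_mod_cast h3
    have h6 : m < k + 1 := by exact_mod_cast h4
    have h7 : m = k := by omega
    subst h7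
    have h8 : (j : ℝ) = 2 * m + 1 := by exact_mod_cast hm
    rw [h8] at l1 l2 hjx hjx'
    constructor <;> linarith

/-- Near the turn `k` (modulo `T`), the position is in the turn `k`. -/
theorem xr_of_near {T : ℕ} {k n : ℤ} (h0 : 0 ≤ k) (hk : k < T) {θ : ℝ}
    (h : |P0 T θ - (k + T * n)| < 3 / 10) : 2 * (k : ℝ) + 1 < xr T θ ∧ xr T θ < 2 * k + 2 := by
  set m := ⌊(θ + Real.pi) / (2 * Real.pi)⌋ with hm
  have h1 := P0_ar T θ
  rw [← hm, P0_eq T (ar θ), xc_ar] at h1
  have hx0 := xr_nonneg T θ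
  have hx1 := xr_lt T θ
  obtain ⟨b1, b2⟩ := interp_bounds hx0 hx1
  have hk0 : (0 : ℝ) ≤ k := by exact_mod_cast h0
  have hk1 : (k : ℝ) + 1 ≤ T := by exact_mod_cast hk
  have hT0 : (0 : ℝ) ≤ T := by positivity
  have hnm : n = m := by
    rcases lt_trichotomy n m with h2 | h2 | h2
    · exfalso
      have h3 : (n : ℝ) + 1 ≤ m := by exact_mod_cast h2
      have h4 : (T : ℝ) * (n + 1) ≤ T * m := mul_le_mul_of_nonneg_left h3 hT0
      have h5 := (abs_lt.mp h).2
      rw [h1] at h5
      linarith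
    · exact h2
    · exfalso
      have h3 : (m : ℝ) + 1 ≤ n := by exact_mod_cast h2
      have h4 : (T : ℝ) * (m + 1) ≤ T * n := mul_le_mul_of_nonneg_left h3 hT0
      have h5 := (abs_lt.mp h).1
      rw [h1] at h5
      linarith
  refine turn_of_near hx0 hx1 ?_
  rw [hnm, h1] at h
  have h6 : interp (cP T) (xr T θ) + T * (m : ℝ) - (k + T * m) = interp (cP T) (xr T θ) - k := by
    ring
  rwa [h6] at h

/-! ### The periodic extension of the cut-off -/

/-- The periodic extension of `RV.cy T a`. -/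
noncomputable def cyP (T a : ℕ) (θ : ℝ) : ℝ := cyF T a (xr T θ)

theorem cyP_nonneg {T a : ℕ} (ha : a < T) (θ : ℝ) : 0 ≤ cyP T a θ := cyF_nonneg ha _

theorem continuous_cyP {T a : ℕ} (ha : a < T) : Continuous (cyP T a) := by
  have h1 : Continuous ((fun s : ℝ => cyF T a ((2 * T + 1) * s)) ∘ Int.fract) := by
    refine ContinuousOn.comp_fract'' ?_ ?_
    · have := continuous_cyF T a
      exact Continuous.continuousOn (by fun_prop)
    · rw [mul_zero, mul_one, cyF_zero, cyF_end ha]
  have h2 : cyP T a = ((fun s : ℝ => cyF T a ((2 * T + 1) * s)) ∘ Int.fract) ∘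
      fun θ => (θ + Real.pi) / (2 * Real.pi) := rfl
  rw [h2]
  exact h1.comp (by fun_prop)

theorem cyP_periodic (T a : ℕ) : Function.Periodic (cyP T a) (2 * Real.pi) := by
  intro θ
  have hp := Real.pi_pos
  unfold cyP xr
  have h1 : (θ + 2 * Real.pi + Real.pi) / (2 * Real.pi) = (θ + Real.pi) / (2 * Real.pi) + 1 := by
    field_simp
    ring
  rw [h1, Int.fract_add_one]

/-- **The periodic extension at the argument is the cut-off.** -/
theorem cyP_arg {T a : ℕ} (ha : a < T) (y : ℂ) : cyP T a (Complex.arg y) = RV.cy T a y := by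
  have hp := Real.pi_pos
  have h1 := Complex.neg_pi_lt_arg y
  have h2 := Complex.arg_le_pi y
  have h3 : RV.cy T a y = cyF T a (RV.xc T (Complex.arg y)) := rfl
  rw [h3]
  rcases h2.lt_or_eq with h4 | h4
  · have h5 : Int.fract ((Complex.arg y + Real.pi) / (2 * Real.pi)) =
        (Complex.arg y + Real.pi) / (2 * Real.pi) := by
      rw [Int.fract_eq_self]
      constructor
      · have : 0 ≤ Complex.arg y + Real.pi := by linarith
        positivity
      · rw [div_lt_one (by positivity)]
        linarith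
    unfold cyP xr
    rw [h5]
    congr 1
    unfold RV.xc
    ring
  · have h5 : (Real.pi + Real.pi) / (2 * Real.pi) = 1 := by
      rw [← two_mul, div_self (by positivity)]
    have h6 : RV.xc T Real.pi = 2 * T + 1 := by
      have h7 : RV.xc T Real.pi = (2 * T + 1) * ((Real.pi + Real.pi) / (2 * Real.pi)) := by
        unfold RV.xc
        ring
      rw [h7, h5, mul_one]
    unfold cyP xr
    rw [h4, h5, h6, Int.fract_one, mul_zero, cyF_zero, cyF_end ha]

/-! ### The gate multipliers of stage I -/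

/-- **The gate multipliers of stage I**: from the cut-off to the marks. -/
noncomputable def XI (a T : ℕ) (t θ : ℝ) : ℝ :=
  (1 - RV.clamp01 t) * cyP T a θ + RV.clamp01 t * mark a T (P0 T θ)

theorem XI_arg {a T : ℕ} (ha : a < T) {t : ℝ} (ht : t ∈ Icc (0 : ℝ) 1) (y : ℂ) :
    XI a T t (Complex.arg y) =
      (1 - t) * RV.cy T a y + t * mark a T (P0 T (Complex.arg y)) := by
  unfold XI
  rw [clamp01_of_mem' ht.1 ht.2, cyP_arg ha]

theorem XI_zero {a T : ℕ} (ha : a < T) (y : ℂ) : XI a T 0 (Complex.arg y) = RV.cy T a y := by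
  rw [XI_arg ha ⟨le_rfl, zero_le_one⟩]
  ring

theorem XI_one (a T : ℕ) (θ : ℝ) : XI a T 1 θ = mark a T (P0 T θ) := by
  unfold XI
  rw [clamp01_of_ge le_rfl]
  ring

theorem mark_per {a T : ℕ} (hT : 0 < T) (p : ℝ) (n : ℤ) :
    mark a T (p + T * n) = mark a T p := by
  have := mark_add (a := a) hT p n
  rwa [mul_comm (n : ℝ)] at this

/-- **Stage I, part (b)**: the gate multipliers. -/
theorem markData_XI {a T : ℕ} (ha : a < T) : MarkData T (fun _ => P0 T) (XI a T) where
  cont := by
    have h1 := continuous_cyP ha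
    have h2 := continuous_clamp01
    have h3 := continuous_mark a T
    have h4 := continuous_P0 T
    unfold XI
    fun_prop
  per := by
    intro t θ
    unfold XI
    rw [cyP_periodic, P0_add]
    have h1 := mark_per (a := a) (by omega : 0 < T) (P0 T θ) 1
    rw [Int.cast_one, mul_one] at h1
    rw [h1]
  nonneg := by
    intro t θ
    unfold XI
    have h1 := clamp01_nonneg t
    have h2 := clamp01_le_one t
    have h3 := cyP_nonneg ha θ
    have h4 := mark_nonneg a T (P0 T θ)
    have h5 : 0 ≤ 1 - RV.clamp01 t := by linarith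
    positivity
  cases := by
    intro t ht θ
    have hT : 0 < T := by omega
    rcases le_or_gt (3 / 10) (dZ (P0 T θ)) with h | h
    · exact Or.inr (Or.inl h)
    · obtain ⟨K, hK⟩ := exists_int_of_dZ_lt h
      set k : ℤ := K % T with hk
      set n : ℤ := K / T with hn
      have hKe : (K : ℝ) = k + T * n := by
        have h1 := Int.emod_add_mul_ediv K T
        rw [← hk, ← hn] at h1
        exact_mod_cast h1.symm
      have hk0 : 0 ≤ k := Int.emod_nonneg _ (by omega)
      have hk1 : k < T := Int.emod_lt_of_pos _ (by omega)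
      obtain ⟨k', hk'⟩ := Int.eq_ofNat_of_zero_le hk0
      have hkr : (k : ℝ) = (k' : ℕ) := by rw [hk']; simp
      rw [hKe] at hK
      have key : ∀ θ' : ℝ, |P0 T θ' - (k + T * n)| < 3 / 10 →
          (2 * (k' : ℝ) + 1 < xr T θ' ∧ xr T θ' < 2 * k' + 2) ∧
            |(P0 T θ' + T * (-n : ℤ)) - k'| ≤ 3 / 10 := by
        intro θ' h'
        have h1 := xr_of_near hk0 hk1 h'
        rw [hkr] at h1
        refine ⟨h1, ?_⟩
        rw [hkr] at h'
        have h2 : P0 T θ' + T * ((-n : ℤ) : ℝ) - k' = P0 T θ' - (k' + T * n) := by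
          push_cast; ring
        rw [h2]
        exact h'.le
      rcases le_or_gt k' a with hka | hka
      · left
        have hc : Continuous fun q : ℝ × ℝ => |P0 T q.2 - (k + T * n)| := by
          have := continuous_P0 T
          fun_prop
        have hev : ∀ᶠ q : ℝ × ℝ in 𝓝 (t, θ), |P0 T q.2 - (k + T * n)| < 3 / 10 :=
          hc.continuousAt.eventually (eventually_lt_nhds (by simpa using hK))
        filter_upwards [hev] with q hq
        obtain ⟨⟨e1, e2⟩, e3⟩ := key q.2 hq
        have m1 : mark a T (P0 T q.2) = 0 := by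
          rw [← mark_per hT (P0 T q.2) (-n)]
          exact mark_zero hT hka e3
        unfold XI cyP
        rw [m1, cyF_turn_zero hka ha e2.le]
        ring
      · right; right
        obtain ⟨⟨e1, e2⟩, e3⟩ := key θ hK
        have hkT : k' < T := by omega
        have m1 : mark a T (P0 T θ) = 1 := by
          rw [← mark_per hT (P0 T θ) (-n)]
          exact mark_one hT hka hkT e3
        unfold XI cyP
        rw [m1, cyF_turn_one hka hkT e1.le e2.le]
        linarith

end Vale.Agent.P268.T.H5
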