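import Vale.Agent.P268.T.HEq
import Vale.Agent.P268.T.RS

/-!
# P268, topological half: composition of regular Lipschitz families with submersions, and
weighted homogeneous families which are not holomorphic
-/

set_option linter.unusedSectionVars false

namespace Vale.Agent.P268.T.H5

open Set Filter Topology

section Comp

variable {E : Type*} [NormedAddCommGroup E] [NormedSpace ℝ E]
  {E' : Type*} [NormedAddCommGroup E'] [NormedSpace ℝ E']
  {Z : Type*} [NormedAddCommGroup Z] [NormedSpace ℝ Z]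
  {T : Type*} [TopologicalSpace T]

/-- `F` is locally Lipschitz at `(t₀, x₀)`, uniformly in `t` near `t₀`. -/
def LipAt (s : Set T) (F : T → E → Z) (t₀ : T) (x₀ : E) : Prop :=
  ∃ L : ℝ, ∃ U ∈ 𝓝 x₀, ∀ᶠ t in 𝓝[s] t₀, ∀ x ∈ U, ∀ y ∈ U, ‖F t x - F t y‖ ≤ L * ‖x - y‖

theorem LipAt.mono {s s' : Set T} (hs : s' ⊆ s) {F : T → E → Z} {t₀ : T} {x₀ : E}
    (h : LipAt s F t₀ x₀) : LipAt s' F t₀ x₀ := by
  obtain ⟨L, U, hU, h1⟩ := h
  exact ⟨L, U, hU, h1.filter_mono (nhdsWithin_mono _ hs)⟩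

/-- Composition of a regular, locally Lipschitz family with a strictly differentiable map with
surjective derivative. -/
theorem RegAt.comp_strict [FiniteDimensional ℝ E'] {s : Set T} {F : T → E' → Z} {t₀ : T}
    {φ : E → E'} {x₀ : E} {φ' : E →L[ℝ] E'} (hφ : HasStrictFDerivAt φ φ' x₀)
    (hsurj : Function.Surjective φ') (hL : LipAt s F t₀ (φ x₀)) (h : RegAt s F t₀ (φ x₀)) :
    RegAt s (fun t x => F t (φ x)) t₀ x₀ := by
  obtain ⟨k, hk0, hk1, A, U, hU, hev⟩ := h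
  obtain ⟨L, W, hW, hLev⟩ := hL
  obtain ⟨B', hB'⟩ := (φ' : E →ₗ[ℝ] E').exists_rightInverse_of_surjective
    (LinearMap.range_eq_top.mpr hsurj)
  set B : E' →L[ℝ] E := LinearMap.toContinuousLinearMap B' with hB
  have hBφ : ∀ c, φ' (B c) = c := fun c => LinearMap.congr_fun hB' c
  set A' : Z →L[ℝ] E := B.comp A with hA'
  set l : ℝ := max L 0 with hl
  have hl0 : 0 ≤ l := le_max_right _ _
  set ε : ℝ := (1 - k) / (2 * ((l + 1) * (‖A'‖ + 1))) with hε
  have hε0 : 0 < ε := div_pos (by linarith) (by positivity)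
  obtain ⟨ρ, hρ, hball⟩ := Metric.mem_nhds_iff.mp (Filter.inter_mem hU hW)
  have hs1 : ∀ᶠ p : E × E in 𝓝 (x₀, x₀), ‖φ p.1 - φ p.2 - φ' (p.1 - p.2)‖ ≤ ε * ‖p.1 - p.2‖ :=
    hφ.isLittleO.def hε0
  rw [nhds_prod_eq] at hs1
  obtain ⟨V₁, hV₁, V₂, hV₂, hs2⟩ := Filter.mem_prod_iff.mp hs1
  have hcont : ∀ᶠ x in 𝓝 x₀, φ x ∈ Metric.ball (φ x₀) (ρ / 2) :=
    hφ.continuousAt (Metric.ball_mem_nhds _ (by positivity))
  set δ : ℝ := ρ / (4 * (ε + 1)) with hδ
  have hδ0 : 0 < δ := by positivity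
  set V : Set E := (V₁ ∩ V₂) ∩ ({x | φ x ∈ Metric.ball (φ x₀) (ρ / 2)} ∩ Metric.ball x₀ δ) with hV
  have hVm : V ∈ 𝓝 x₀ :=
    Filter.inter_mem (Filter.inter_mem hV₁ hV₂)
      (Filter.inter_mem hcont (Metric.ball_mem_nhds _ hδ0))
  refine ⟨(1 + k) / 2, by linarith, by linarith, A', V, hVm, ?_⟩
  filter_upwards [hev, hLev] with t ht htL x hx c hc
  have hAc : φ' (A' c) = A c := hBφ _
  have e1 : ‖φ (x + A' c) - φ x - A c‖ ≤ ε * ‖A' c‖ := by
    have h1 := hs2 (show (x + A' c, x) ∈ V₁ ×ˢ V₂ from ⟨hc.1.1, hx.1.2⟩)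
    have h2 : ‖φ (x + A' c) - φ x - φ' (x + A' c - x)‖ ≤ ε * ‖x + A' c - x‖ := h1
    rwa [add_sub_cancel_left, hAc] at h2
  have e2 : ‖A' c‖ ≤ 2 * δ := by
    have h1 : x + A' c ∈ Metric.ball x₀ δ := hc.2.2
    have h2 : x ∈ Metric.ball x₀ δ := hx.2.2
    rw [Metric.mem_ball, dist_eq_norm] at h1 h2
    calc ‖A' c‖ = ‖(x + A' c - x₀) - (x - x₀)‖ := by congr 1; abel
      _ ≤ ‖x + A' c - x₀‖ + ‖x - x₀‖ := norm_sub_le _ _
      _ ≤ 2 * δ := by linarith
  have hp1 : φ (x + A' c) ∈ Metric.ball (φ x₀) ρ :=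
    Metric.ball_subset_ball (by linarith) hc.2.1
  have hp2 : φ x ∈ Metric.ball (φ x₀) ρ := Metric.ball_subset_ball (by linarith) hx.2.1
  have hp3 : φ x + A c ∈ Metric.ball (φ x₀) ρ := by
    have h1 : φ (x + A' c) ∈ Metric.ball (φ x₀) (ρ / 2) := hc.2.1
    rw [Metric.mem_ball, dist_eq_norm] at h1 ⊢
    have h3 : ε * ‖A' c‖ ≤ ρ / 2 := by
      calc ε * ‖A' c‖ ≤ ε * (2 * δ) := mul_le_mul_of_nonneg_left e2 hε0.le
        _ = (ε / (ε + 1)) * (ρ / 2) := by rw [hδ]; field_simp; ring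
        _ ≤ 1 * (ρ / 2) := by
            refine mul_le_mul_of_nonneg_right ?_ (by positivity)
            rw [div_le_one (by positivity)]
            linarith
        _ = ρ / 2 := one_mul _
    calc ‖φ x + A c - φ x₀‖ = ‖(φ (x + A' c) - φ x₀) - (φ (x + A' c) - φ x - A c)‖ := by
          congr 1; abel
      _ ≤ ‖φ (x + A' c) - φ x₀‖ + ‖φ (x + A' c) - φ x - A c‖ := norm_sub_le _ _
      _ < ρ := by linarith
  have e3 : ‖F t (φ x + A c) - F t (φ x) - c‖ ≤ k * ‖c‖ := ht _ (hball hp2).1 c (hball hp3).1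
  have e4 : ‖F t (φ (x + A' c)) - F t (φ x + A c)‖ ≤ l * (ε * ‖A' c‖) := by
    have h1 := htL _ (hball hp1).2 _ (hball hp3).2
    calc _ ≤ L * ‖φ (x + A' c) - (φ x + A c)‖ := h1
      _ ≤ l * ‖φ (x + A' c) - (φ x + A c)‖ :=
          mul_le_mul_of_nonneg_right (le_max_left _ _) (norm_nonneg _)
      _ ≤ l * (ε * ‖A' c‖) := by
          refine mul_le_mul_of_nonneg_left ?_ hl0
          rw [← sub_sub]
          exact e1
  have e5 : l * (ε * ‖A' c‖) ≤ (1 - k) / 2 * ‖c‖ := by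
    have h1 : ‖A' c‖ ≤ (‖A'‖ + 1) * ‖c‖ :=
      (A'.le_opNorm c).trans (mul_le_mul_of_nonneg_right (by linarith) (norm_nonneg _))
    calc l * (ε * ‖A' c‖) ≤ (l + 1) * (ε * ((‖A'‖ + 1) * ‖c‖)) := by
          refine mul_le_mul (by linarith) (mul_le_mul_of_nonneg_left h1 hε0.le) (by positivity)
            (by linarith)
      _ = (1 - k) / 2 * ‖c‖ := by
          have h3 : (l + 1) * (‖A'‖ + 1) ≠ 0 := by positivity
          rw [hε]
          field_simp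
  calc ‖F t (φ (x + A' c)) - F t (φ x) - c‖
      = ‖(F t (φ (x + A' c)) - F t (φ x + A c)) + (F t (φ x + A c) - F t (φ x) - c)‖ := by
        congr 1; abel
    _ ≤ ‖F t (φ (x + A' c)) - F t (φ x + A c)‖ + ‖F t (φ x + A c) - F t (φ x) - c‖ :=
        norm_add_le _ _
    _ ≤ (1 + k) / 2 * ‖c‖ := by linarith

theorem LipAt.comp {s : Set T} {F : T → E' → Z} {t₀ : T} {φ : E → E'} {x₀ : E}
    (hφ : ∃ C : ℝ, ∃ U ∈ 𝓝 x₀, ∀ x ∈ U, ∀ y ∈ U, ‖φ x - φ y‖ ≤ C * ‖x - y‖)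
    (hL : LipAt s F t₀ (φ x₀)) (hc : ContinuousAt φ x₀) :
    LipAt s (fun t x => F t (φ x)) t₀ x₀ := by
  obtain ⟨C, U, hU, h1⟩ := hφ
  obtain ⟨L, W, hW, h2⟩ := hL
  refine ⟨max L 0 * C, U ∩ φ ⁻¹' W, Filter.inter_mem hU (hc hW), ?_⟩
  filter_upwards [h2] with t ht x hx y hy
  calc ‖F t (φ x) - F t (φ y)‖ ≤ L * ‖φ x - φ y‖ := ht _ hx.2 _ hy.2
    _ ≤ max L 0 * ‖φ x - φ y‖ := mul_le_mul_of_nonneg_right (le_max_left _ _) (norm_nonneg _)
    _ ≤ max L 0 * (C * ‖x - y‖) :=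
        mul_le_mul_of_nonneg_left (h1 _ hx.1 _ hy.1) (le_max_right _ _)
    _ = _ := by ring

end Comp

section Weighted

variable {n : Type*} [Fintype n] {T : Type*} [TopologicalSpace T]

/-- Weighted homogeneous families with critical values in `S` (not necessarily holomorphic). -/
structure WNFam (S : Set ℂ) (w : n → ℝ) (s : Set T) (f : T → (n → ℂ) → ℂ) : Prop where
  cont : ContinuousOn (fun q : T × (n → ℂ) => f q.1 q.2) (s ×ˢ univ)
  hom : ∀ t ∈ s, ∀ r : ℝ, 0 ≤ r → ∀ z, f t (fun i => (r ^ (w i) : ℝ) • z i) = r • f t z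
  lip : ∀ t ∈ s, ∀ z ≠ 0, f t z ∉ S → LipAt s f t z
  reg : ∀ t ∈ s, ∀ z ≠ 0, f t z ∉ S → RegAt s f t z

theorem WNFam.nFam {S : Set ℂ} {w : n → ℝ} (hw : ∀ i, 0 < w i) {s : Set T}
    {f : T → (n → ℂ) → ℂ} (h : WNFam S w s f) : NFam S s (fun t x => f t (Wc w x)) where
  cont := by
    have h1 : ContinuousOn (fun q : T × EuclideanSpace ℂ n => (q.1, Wc w q.2)) (s ×ˢ univ) :=
      (continuous_fst.prodMk ((continuous_Wc hw).comp continuous_snd)).continuousOn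
    exact h.cont.comp h1 (fun q hq => ⟨hq.1, mem_univ _⟩)
  hom := fun t ht r hr x => by
    show f t (Wc w (r • x)) = r • f t (Wc w x)
    rw [Wc_smul hw hr, h.hom t ht r hr]
  reg := fun t ht x hx h0 => by
    have hz : Wc w x ≠ 0 := Wc_ne_zero hw hx
    exact RegAt.comp_strict ((contDiffAt_Wc w hx (k := 1)).hasStrictFDerivAt one_ne_zero)
      (surjective_fderiv_Wc hw hx) (h.lip t ht _ hz h0) (h.reg t ht _ hz h0)

theorem NFam.toHFam {T : Type*} [TopologicalSpace T] {E : Type*} [NormedAddCommGroup E]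
    [NormedSpace ℝ E] {S : Set ℂ} (hS : ∀ z ∈ S, z.re < 0) {s : Set T}
    {F : T → E → ℂ} (h : NFam S s F) : HFam s F :=
  ⟨h.cont, h.hom, fun t ht x hx h0 => h.reg t ht x hx (fun h1 => not_lt.mpr h0 (hS _ h1))⟩

theorem HFam.toNFam {T : Type*} [TopologicalSpace T] {E : Type*} [NormedAddCommGroup E]
    [NormedSpace ℝ E] {s : Set T} {F : T → E → ℂ} (h : HFam s F) : NFam {z | z.re < 0} s F :=
  ⟨h.cont, h.hom, fun t ht x hx h0 => h.reg t ht x hx (not_lt.mp h0)⟩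

/-- Weighted homogeneous families of class `H`. -/
theorem WNFam.hFam {w : n → ℝ} (hw : ∀ i, 0 < w i) {s : Set T}
    {f : T → (n → ℂ) → ℂ} (h : WNFam {z : ℂ | z.re < 0} w s f) :
    HFam s (fun t x => f t (Wc w x)) :=
  NFam.toHFam (fun _ hz => hz) (h.nFam hw)

/-- Weighted homogeneous families of class `O`. -/
theorem WNFam.oFam {w : n → ℝ} (hw : ∀ i, 0 < w i) {s : Set T}
    {f : T → (n → ℂ) → ℂ} (h : WNFam ∅ w s f) : OFam s (fun t x => f t (Wc w x)) :=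
  nfam_empty.mp (h.nFam hw)

/-! ### Coordinatewise powers -/

/-- The power map `x ↦ ‖x‖^(a-1) x` of the plane. -/
noncomputable def pw (a : ℝ) (x : ℂ) : ℂ := (‖x‖ ^ (a - 1) : ℝ) • x

theorem pw_zero (a : ℝ) : pw a 0 = 0 := by simp [pw]

theorem norm_pw {a : ℝ} (ha : 0 < a) (x : ℂ) : ‖pw a x‖ = ‖x‖ ^ a := by
  rcases eq_or_ne x 0 with rfl | hx
  · rw [pw_zero, norm_zero, Real.zero_rpow ha.ne']
  · have h0 : 0 < ‖x‖ := norm_pos_iff.mpr hx
    rw [pw, norm_smul, Real.norm_of_nonneg (Real.rpow_nonneg h0.le _)]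
    nth_rewrite 2 [← Real.rpow_one ‖x‖]
    rw [← Real.rpow_add h0]
    congr 1
    ring

theorem pw_pw {a b : ℝ} (hb : 0 < b) (x : ℂ) : pw a (pw b x) = pw (a * b) x := by
  rcases eq_or_ne x 0 with rfl | hx
  · simp [pw_zero]
  · have h0 : 0 < ‖x‖ := norm_pos_iff.mpr hx
    rw [pw, norm_pw hb, pw, pw, smul_smul, ← Real.rpow_mul h0.le, ← Real.rpow_add h0]
    congr 2
    ring

theorem pw_one (x : ℂ) : pw 1 x = x := by simp [pw]

theorem continuous_pw {a : ℝ} (ha : 0 < a) : Continuous (pw a) := by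
  rw [continuous_iff_continuousAt]
  intro x
  rcases eq_or_ne x 0 with rfl | hx
  · rw [ContinuousAt, pw_zero, tendsto_zero_iff_norm_tendsto_zero]
    have h1 : (fun x : ℂ => ‖pw a x‖) = fun x => ‖x‖ ^ a := funext fun x => norm_pw ha x
    rw [h1]
    have h2 : Tendsto (fun x : ℂ => ‖x‖ ^ a) (𝓝 0) (𝓝 (‖(0 : ℂ)‖ ^ a)) :=
      (continuous_norm.tendsto 0).rpow_const (Or.inr ha.le)
    rwa [norm_zero, Real.zero_rpow ha.ne'] at h2
  · exact (continuous_norm.continuousAt.rpow_const (Or.inl (norm_ne_zero_iff.mpr hx))).smul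
      continuousAt_id

theorem pw_smul {a : ℝ} (ha : 0 < a) {r : ℝ} (hr : 0 ≤ r) (x : ℂ) :
    pw a (r • x) = (r ^ a : ℝ) • pw a x := by
  rcases hr.eq_or_lt with rfl | hr
  · rw [zero_smul, pw_zero, Real.zero_rpow ha.ne', zero_smul]
  · rw [pw, pw, norm_smul, Real.norm_of_nonneg hr.le, Real.mul_rpow hr.le (norm_nonneg _),
      smul_smul, smul_smul]
    congr 1
    have : r ^ a = r ^ (a - 1) * r := by
      nth_rewrite 3 [← Real.rpow_one r]
      rw [← Real.rpow_add hr]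
      congr 1
      ring
    rw [this]
    ring

/-- The homeomorphism of `ℂⁿ` given by coordinatewise powers. -/
noncomputable def pwHomeo {w : n → ℝ} (hw : ∀ i, 0 < w i) : (n → ℂ) ≃ₜ (n → ℂ) where
  toFun x := fun i => pw (w i) (x i)
  invFun x := fun i => pw (w i)⁻¹ (x i)
  left_inv x := by
    funext i
    show pw (w i)⁻¹ (pw (w i) (x i)) = x i
    rw [pw_pw (hw i), inv_mul_cancel₀ (hw i).ne', pw_one]
  right_inv x := by
    funext i
    show pw (w i) (pw (w i)⁻¹ (x i)) = x i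
    rw [pw_pw (inv_pos.mpr (hw i)), mul_inv_cancel₀ (hw i).ne', pw_one]
  continuous_toFun := continuous_pi fun i => (continuous_pw (hw i)).comp (continuous_apply i)
  continuous_invFun :=
    continuous_pi fun i => (continuous_pw (inv_pos.mpr (hw i))).comp (continuous_apply i)

theorem hom1_pw {w : n → ℝ} (hw : ∀ i, 0 < w i) {f : (n → ℂ) → ℂ}
    (hom : ∀ r : ℝ, 0 ≤ r → ∀ z, f (fun i => (r ^ (w i) : ℝ) • z i) = r • f z) :
    Hom1 (fun x : n → ℂ => f fun i => pw (w i) (x i)) := by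
  intro r hr x
  show f (fun i => pw (w i) ((r • x) i)) = r • f (fun i => pw (w i) (x i))
  rw [← hom r hr]
  congr 1
  funext i
  exact pw_smul (hw i) hr (x i)

end Weighted

/-- Change of the homogenisation: from `f ∘ Wc w` to `f` composed with coordinatewise powers. -/
theorem HEqv.wc_pw {n : Type} [Fintype n] {w : n → ℝ} (hw : ∀ i, 0 < w i) {f : (n → ℂ) → ℂ}
    (h1 : HFun (fun x : EuclideanSpace ℂ n => f (Wc w x)))
    (h2 : HFun (fun x : n → ℂ => f fun i => pw (w i) (x i))) :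
    HEqv (fun x : EuclideanSpace ℂ n => f (Wc w x)) (fun x : n → ℂ => f fun i => pw (w i) (x i)) := by
  refine HEqv.of_homeo h1 h2 ((WcHomeo hw).trans (pwHomeo hw).symm) ?_ fun x => ?_
  · show (pwHomeo hw).symm (Wc w 0) = 0
    rw [Wc_zero]
    funext i
    exact pw_zero _
  · show f (Wc w x) = f ((pwHomeo hw) ((pwHomeo hw).symm (WcHomeo hw x)))
    rw [Homeomorph.apply_symm_apply]
    rfl

end Vale.Agent.P268.T.H5
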